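import Vale.Agent.P212.RoeMax

namespace Vale.Agent.P212

open NNReal Matrix

/-- `p` is a point with rational barycentric coordinates of the Rips complex `P_r(X)`. -/
def InRipsC {X : Type} [MetricSpace X] (r : ℝ) (p : X →₀ ℚ) : Prop :=
  (∀ x, 0 ≤ p x) ∧ (p.sum fun _ a => a) = 1 ∧ ∀ x ∈ p.support, ∀ y ∈ p.support, dist x y ≤ r

/-- The basis vectors of `l^2(X) ⊗ l^2(ℕ)` are placed at the rational points of the Rips
complexes: `b (x, n)` at the point `p (x, n)` of which `x` is a vertex, and each point occurs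
infinitely often over each of its vertices. -/
def IsPlacement {X : Type} [MetricSpace X] (p : X × ℕ → X →₀ ℚ) : Prop :=
  (∀ j, ∃ r, InRipsC r (p j) ∧ j.1 ∈ (p j).support) ∧
    ∀ r q, InRipsC r q → ∀ x ∈ q.support, {n | p (x, n) = q}.Infinite

/-- `T` is a path of operators in `ℂ[P_r(X)]` whose propagation, in the `l^1` metric of the
Rips complex, tends to zero. -/
def IsLocalC {X : Type} [MetricSpace X] {H : Type} [NormedAddCommGroup H]
    [InnerProductSpace ℂ H] (b : HilbertBasis (X × ℕ) ℂ H) (p : X × ℕ → X →₀ ℚ) (r : ℝ)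
    (T : ℝ≥0 → H →L[ℂ] H) : Prop :=
  (∀ t, IsRoeOp b (T t)) ∧
  (∀ t j k, inner ℂ (b j) (T t (b k)) ≠ 0 → InRipsC r (p j) ∧ InRipsC r (p k)) ∧
  ∀ ε > 0, ∃ t₀, ∀ t ≥ t₀, ∀ j k, inner ℂ (b j) (T t (b k)) ≠ 0 →
    ((p j - p k).sum fun _ a => |(a : ℝ)|) ≤ ε

/-- `F` is in the unitization of the maximal localization algebra `C*_{L,max}(P_r(X))`, the
closure in the supremum norm of the bounded and uniformly continuous paths as above: it is
`c + f`, where `f` can be approximated by paths `i (T t)`. -/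
def IsLoc {X : Type} [MetricSpace X] {H : Type} [NormedAddCommGroup H]
    [InnerProductSpace ℂ H] {A : Type} [NonUnitalCStarAlgebra A]
    (b : HilbertBasis (X × ℕ) ℂ H) (i : (H →L[ℂ] H) → A) (p : X × ℕ → X →₀ ℚ) (r : ℝ)
    (F : ℝ≥0 → Unitization ℂ A) : Prop :=
  ∃ (c : ℂ) (f : ℝ≥0 → A), (∀ t, F t = Unitization.inl c + Unitization.inr (f t)) ∧
    ∀ ε > 0, ∃ T : ℝ≥0 → H →L[ℂ] H, IsLocalC b p r T ∧
      UniformContinuous (fun t => i (T t)) ∧ (∃ C, ∀ t, ‖i (T t)‖ ≤ C) ∧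
      ∀ t, ‖f t - i (T t)‖ ≤ ε

/-- Two idempotent matrices with entries in the subring of `R` given by `S` define the same
element of its `K_0`-group: they become Murray-von Neumann equivalent after adding an identity
matrix. -/
def SameK {R : Type} [Ring R] (S : R → Prop) {κ : Type} [Fintype κ] (e f : Matrix κ κ R) :
    Prop :=
  ∃ (m : ℕ) (x y : Matrix (κ ⊕ Fin m) (κ ⊕ Fin m) R), (∀ j k, S (x j k) ∧ S (y j k)) ∧
    x * y = fromBlocks e 0 0 1 ∧ y * x = fromBlocks f 0 0 1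

/-- The rational assembly map `KX_0(X) ⊗ ℚ → K_0(C*_max(X)) ⊗ ℚ` is injective: if evaluation
at time zero maps `[e] - [f] ∈ K_0(C*_{L,max}(P_r(X)))` to zero, then some multiple
`N ([e] - [f])` vanishes in `K_0(C*_{L,max}(P_s(X)))` for some `s ≥ r`. -/
def RatInjective {X : Type} [MetricSpace X] {H : Type} [NormedAddCommGroup H]
    [InnerProductSpace ℂ H] {A : Type} [NonUnitalCStarAlgebra A]
    (b : HilbertBasis (X × ℕ) ℂ H) (i : (H →L[ℂ] H) → A) (p : X × ℕ → X →₀ ℚ) : Prop :=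
  ∀ (r : ℝ) (n : ℕ) (e f : Matrix (Fin n) (Fin n) (ℝ≥0 → Unitization ℂ A)),
    (∀ j k, IsLoc b i p r (e j k) ∧ IsLoc b i p r (f j k)) → e * e = e → f * f = f →
    SameK (fun _ => True) (e.map fun F => (F 0).fst) (f.map fun F => (F 0).fst) →
    SameK (fun _ => True) (e.map fun F => F 0) (f.map fun F => F 0) →
    ∃ N ≥ 1, ∃ s ≥ r, SameK (IsLoc b i p s) (blockDiagonal fun _ : Fin N => e)
      (blockDiagonal fun _ : Fin N => f)

/-- The assembly map of `X` is not rationally injective. -/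
def Counterexample (X H A : Type) [MetricSpace X] [NormedAddCommGroup H]
    [InnerProductSpace ℂ H] [CompleteSpace H] [NonUnitalCStarAlgebra A] : Prop :=
  ∃ (b : HilbertBasis (X × ℕ) ℂ H) (i : (H →L[ℂ] H) → A) (p : X × ℕ → X →₀ ℚ),
    IsMaxRoe b i ∧ IsPlacement p ∧ ¬ RatInjective b i p

end Vale.Agent.P212
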