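import Vale.Agent.P212.MathlibUsed

namespace Vale.Agent.P212

/-- Bounded geometry: balls of radius `R` have uniformly bounded cardinality. -/
class BddGeometry (X : Type) [MetricSpace X] : Prop where
  bdd : ∀ R : ℝ, ∃ N : ℕ, ∀ x : X, (Metric.closedBall x R).encard ≤ N

/-- Uniform discreteness. -/
class UnifDiscrete (X : Type) [MetricSpace X] : Prop where
  sep : ∃ δ : ℝ, 0 < δ ∧ ∀ x y : X, x ≠ y → δ ≤ dist x y

end Vale.Agent.P212
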