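import Vale.Agent.P212.MathlibUsed

/-! Coarse homology with integral coefficients in degree two. -/

namespace Vale.Agent.P212

/-- A function on `(k+1)`-tuples is a controlled chain if its support consists of tuples of
bounded diameter. -/
def Controlled {X : Type} [MetricSpace X] {k : ℕ} (c : (Fin (k + 1) → X) → ℤ) : Prop :=
  ∃ R : ℝ, ∀ x, c x ≠ 0 → ∀ i j, dist (x i) (x j) ≤ R

/-- The boundary: locally finite sums over all ways to insert a vertex. -/
noncomputable def bdry {X : Type} {k : ℕ} (c : (Fin (k + 2) → X) → ℤ)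
    (x : Fin (k + 1) → X) : ℤ := ∑ i : Fin (k + 2), (-1) ^ (i : ℕ) * ∑ᶠ y : X, c (i.insertNth y x)

open Classical in
/-- Extension by zero of a chain on a subspace. -/
noncomputable def extendChain {X : Type} (W : Set X) {k : ℕ} (c : (Fin (k + 1) → W) → ℤ)
    (x : Fin (k + 1) → X) : ℤ := if h : ∀ i, x i ∈ W then c (fun i => ⟨x i, h i⟩) else 0

end Vale.Agent.P212
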