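import Vale.Agent.P212.MathlibUsed

namespace Vale.Agent.P212

/-- The bounded operator `T` on `H = l^2(X) ⊗ l^2(ℕ)`, a Hilbert space with orthonormal basis
`b (x, n)`, has finite propagation and compact matrix entries `T_{xy}` (the operator `K` below
is `T_{xy}`, extended by zero to `H`). -/
def IsRoeOp {X : Type} [MetricSpace X] {H : Type} [NormedAddCommGroup H]
    [InnerProductSpace ℂ H] (b : HilbertBasis (X × ℕ) ℂ H) (T : H →L[ℂ] H) : Prop :=
  (∃ R : ℝ, ∀ j k, R < dist j.1 k.1 → inner ℂ (b j) (T (b k)) = 0) ∧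
  ∀ x y, ∃ K : H →L[ℂ] H, IsCompactOperator K ∧
    (∀ m n, inner ℂ (b (x, m)) (K (b (y, n))) = inner ℂ (b (x, m)) (T (b (y, n)))) ∧
    ∀ j k, ¬ (j.1 = x ∧ k.1 = y) → inner ℂ (b j) (K (b k)) = 0

/-- The restriction of the map `φ` to the *-algebra of all elements `T` of `E` with `P T` is a
*-homomorphism. -/
def StarHomOn {E A : Type} [NonUnitalCStarAlgebra E] [NonUnitalCStarAlgebra A] (P : E → Prop)
    (φ : E → A) : Prop :=
  ∀ S T, P S → P T → φ (S + T) = φ S + φ T ∧ φ (S * T) = φ S * φ T ∧ φ (star T) = star (φ T) ∧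
    ∀ c : ℂ, φ (c • T) = c • φ T

/-- All *-homomorphisms from the *-algebra given by `P` to `B` are bounded by `i`. -/
def BoundedOn {E A : Type} [NonUnitalCStarAlgebra E] [NonUnitalCStarAlgebra A] (P : E → Prop)
    (i : E → A) (B : Type) [NonUnitalCStarAlgebra B] : Prop :=
  ∀ φ : E → B, StarHomOn P φ → ∀ T, P T → ‖φ T‖ ≤ ‖i T‖

/-- The C*-algebra `A` is the completion of the *-algebra given by `P` in the largest norm
coming from *-homomorphisms to C*-algebras. -/
def IsMaxCompletion {E A : Type} [NonUnitalCStarAlgebra E] [NonUnitalCStarAlgebra A]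
    (P : E → Prop) (i : E → A) : Prop :=
  StarHomOn P i ∧ Dense (i '' {T | P T}) ∧
    ∀ (B : Type) [NonUnitalCStarAlgebra B], BoundedOn P i B

/-- `A`, with `i : ℂ[X] → A`, is the maximal Roe algebra of `X`, where the *-algebra `ℂ[X]`
consists of the operators as above. -/
def IsMaxRoe {X : Type} [MetricSpace X] {H : Type} [NormedAddCommGroup H]
    [InnerProductSpace ℂ H] [CompleteSpace H] (b : HilbertBasis (X × ℕ) ℂ H)
    {A : Type} [NonUnitalCStarAlgebra A] (i : (H →L[ℂ] H) → A) : Prop :=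
  IsMaxCompletion (IsRoeOp b) i

end Vale.Agent.P212
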