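import Vale.Agent.P212.RoeMax

namespace Vale.Agent.P212

/-- For `W ⊆ X`, the homomorphism `φ : C*_max(W) → C*_max(X)` is induced by the inclusion: it
extends an operator `T` on `l^2(W) ⊗ l^2(ℕ)` by zero to an operator `S` on
`l^2(X) ⊗ l^2(ℕ)`. -/
def IsInduced {X : Type} [MetricSpace X] {W : Set X} {H H' : Type} [NormedAddCommGroup H]
    [InnerProductSpace ℂ H] [NormedAddCommGroup H'] [InnerProductSpace ℂ H']
    (b : HilbertBasis (W × ℕ) ℂ H) (b' : HilbertBasis (X × ℕ) ℂ H') {A A' : Type}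
    (i : (H →L[ℂ] H) → A) (i' : (H' →L[ℂ] H') → A') (φ : A → A') : Prop :=
  ∀ T, IsRoeOp b T → ∃ S, IsRoeOp b' S ∧ φ (i T) = i' S ∧
    (∀ j k : W × ℕ, inner ℂ (b' (j.1, j.2)) (S (b' (k.1, k.2))) = inner ℂ (b j) (T (b k))) ∧
    ∀ j k, ¬ (j.1 ∈ W ∧ k.1 ∈ W) → inner ℂ (b' j) (S (b' k)) = 0

/-- Two idempotent matrices over a ring define the same element of its `K_0`-group: they become
Murray-von Neumann equivalent after adding an identity matrix. -/
def SameK0 {R : Type} [Ring R] {n : ℕ} (e f : Matrix (Fin n) (Fin n) R) : Prop :=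
  ∃ (m : ℕ) (x y : Matrix (Fin n ⊕ Fin m) (Fin n ⊕ Fin m) R),
    x * y = Matrix.fromBlocks e 0 0 1 ∧ y * x = Matrix.fromBlocks f 0 0 1

/-- The map `K_0(A) → K_0(B)` induced by `φ` is zero. Here an element of `K_0(A)`, the kernel
of `K_0(A^+) → K_0(ℂ)`, is a difference `[e] - [f]` of idempotent matrices over `A^+`. -/
def K0MapZero {A B : Type} [NonUnitalCStarAlgebra A] [NonUnitalCStarAlgebra B]
    (φ : A →⋆ₙₐ[ℂ] B) : Prop :=
  ∀ (n : ℕ) (e f : Matrix (Fin n) (Fin n) (Unitization ℂ A)), e * e = e → f * f = f →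
    SameK0 (e.map fun a => a.fst) (f.map fun a => a.fst) →
    SameK0 (e.map (Unitization.starMap φ)) (f.map (Unitization.starMap φ))

/-- The inclusion `W → X` induces the zero map `K_0(C*_max(W)) → K_0(C*_max(X))`; here
`C*_max(W) = A`, defined by operators on `H`, and `C*_max(X) = A'`, defined by operators
on `H'`. -/
def ZeroOnK0 {X : Type} [MetricSpace X] (W : Set X) (H H' A A' : Type) [NormedAddCommGroup H]
    [InnerProductSpace ℂ H] [CompleteSpace H] [NormedAddCommGroup H'] [InnerProductSpace ℂ H']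
    [CompleteSpace H'] [NonUnitalCStarAlgebra A] [NonUnitalCStarAlgebra A'] : Prop :=
  ∃ (b : HilbertBasis (W × ℕ) ℂ H) (b' : HilbertBasis (X × ℕ) ℂ H')
    (i : (H →L[ℂ] H) → A) (i' : (H' →L[ℂ] H') → A') (φ : A →⋆ₙₐ[ℂ] A'),
    IsMaxRoe b i ∧ IsMaxRoe b' i' ∧ IsInduced b b' i i' φ ∧ K0MapZero φ

end Vale.Agent.P212
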