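import Mathlib.Algebra.Group.ForwardDiff
import Mathlib.Algebra.GroupWithZero.Action.Pointwise.Finset
import Mathlib.Algebra.Order.Chebyshev
import Mathlib.Algebra.Polynomial.Smeval
import Mathlib.Algebra.Ring.Action.Pointwise.Finset
import Mathlib.Algebra.Ring.IsFormallyReal
import Mathlib.Analysis.CStarAlgebra.ContinuousFunctionalCalculus.Commute
import Mathlib.Analysis.CStarAlgebra.ContinuousLinearMap
import Mathlib.Analysis.CStarAlgebra.Module.Constructions
import Mathlib.Analysis.InnerProductSpace.l2Space
import Mathlib.Analysis.Matrix.PosDef
import Mathlib.Analysis.Normed.Unbundled.RingSeminorm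
import Mathlib.Analysis.Real.Pi.Bounds
import Mathlib.Data.FinEnum
import Mathlib.Data.Finset.Slice
import Mathlib.Data.Finsupp.Encodable
import Mathlib.Data.Int.Star
import Mathlib.Data.Matrix.ColumnRowPartitioned
import Mathlib.Data.Rat.Star
import Mathlib.Data.Set.Card.Arithmetic
import Mathlib.Data.Set.Finite.List
import Mathlib.GroupTheory.FreeGroup.Reduce
import Mathlib.GroupTheory.MonoidLocalization.GrothendieckGroup
import Mathlib.LinearAlgebra.CrossProduct
import Mathlib.LinearAlgebra.Matrix.FiniteDimensional
import Mathlib.LinearAlgebra.Matrix.Swap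
import Mathlib.NumberTheory.Padics.Hensel
import Mathlib.NumberTheory.Padics.RingHoms
import Mathlib.Order.CompletePartialOrder
import Mathlib.RingTheory.Etale.Weakly
import Mathlib.RingTheory.Finiteness.ModuleFinitePresentation
import Mathlib.RingTheory.Flat.TorsionFree
import Mathlib.RingTheory.PicardGroup
import Mathlib.RingTheory.SimpleRing.Principal
import Mathlib.RingTheory.TotallySplit
import Mathlib.Tactic
import Mathlib.Topology.Separation.CompletelyRegular

/-! The part of Mathlib that the development of this folder uses. -/
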